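import Vale.Agent.P088.H332.Loc1
import Vale.Agent.P088.H820.G3
import Vale.Agent.P088.H820.G4

/-!
# P088, exterior determination, part 1: the localised equations, the match near the boundary and
closedness of the set of good points
-/

open Bundle Manifold MeasureTheory Set Filter Topology
open scoped ContDiff

noncomputable section

set_option linter.all false

namespace Vale.Agent.P088.EYM.G

universe u

section Defs

variable {n N : ℕ} [NeZero n] {M : Type u} [TopologicalSpace M]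
  [ChartedSpace (EuclideanHalfSpace n) M] [IsManifold (𝓡∂ n) ∞ M]

variable [MeasurableSpace M]

/-- The Einstein and Yang-Mills equations on `W`. -/
def EYMw (κ : ℝ) (cp : Cpl n N) (P : One n N M) (W : Set M) : Prop :=
  ∀ p : M, EYMeq κ cp (P.loc p) (tgW n W p)

theorem EYMw_of {κ : ℝ} {cp : Cpl n N} {P : One n N M} (h : EYMm κ cp P.g P.A) (W : Set M) :
    EYMw κ cp P W := fun p =>
  ⟨fun x hx => (h p).ein x hx.1, fun x hx k => (h p).ym x hx.1 k⟩

theorem EYMw_mono {κ : ℝ} {cp : Cpl n N} {P : One n N M} {W W' : Set M} (h : EYMw κ cp P W)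
    (hW : W' ⊆ W) : EYMw κ cp P W' := fun p =>
  ⟨fun x hx => (h p).ein x ⟨hx.1, hW hx.2⟩, fun x hx k => (h p).ym x ⟨hx.1, hW hx.2⟩ k⟩

end Defs

section Man

variable {n N : ℕ} [NeZero n] {M : Type u} [TopologicalSpace M]
  [ChartedSpace (EuclideanHalfSpace n) M] [IsManifold (𝓡∂ n) ∞ M]
  [T2Space M] [CompactSpace M] [ConnectedSpace M] [MeasurableSpace M] [BorelSpace M]

/-- The model near an interior point of `W`. -/
theorem wClosed_model (hBM : BModel_statement) (hHarm : CHarm_statement.{u})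
    (hU : CUniq_statement.{u}) (hLoc : CLoc_statement.{u}) (hN : 0 < N) (P : One n N M)
    {κ : ℝ} {cp : Cpl n N} {W₀ : Set M} (hW₀ : IsOpen W₀) (hP : EYMw κ cp P W₀)
    (hb : ((𝓡∂ n).boundary M).Nonempty) (j0 : Fin N)
    {x : M} (hx : x ∈ Mi n M) (hxW : x ∈ W₀) (s : Fin N → M → Fib N) (t : Fin n → M → Fib N)
    (hs : ∀ j, ∃ f, P.Harm f (s j)) (ht : ∀ a, ∃ f, P.Harm f (t a))
    (hu : IsUnit (frm n x s (xc n x x)))
    (hd : (Jac (Xco j0 (frm n x s) (fun a => lu (𝓡∂ n) x (t a))) (xc n x x)).det ≠ 0)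
    (hpos : 0 < Xco j0 (frm n x s) (fun a => lu (𝓡∂ n) x (t a)) (xc n x x) 0) :
    ∃ (Y : E n → E n) (W : Model n N) (r₀ : ℝ), 0 < r₀ ∧ ∀ r, 0 < r → r ≤ r₀ →
      ∃ D₁ ⊆ tg n x, RelOpen D₁ ∧ xc n x x ∈ D₁ ∧
        IsPull (P.loc x) W.toLD D₁
          (HB (Xco j0 (frm n x s) (fun a => lu (𝓡∂ n) x (t a)) (xc n x x)) r)
          (Xco j0 (frm n x s) (fun a => lu (𝓡∂ n) x (t a))) Y (frm n x s) ∧
        IsModel κ cp j0 W (HB (Xco j0 (frm n x s) (fun a => lu (𝓡∂ n) x (t a)) (xc n x x)) r) ∧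
        ∀ y ∈ D₁, ∀ a, lu (𝓡∂ n) x (t a) y =
          frm n x s y (W.c a (Xco j0 (frm n x s) (fun a => lu (𝓡∂ n) x (t a)) y)) := by
  have hss : ∀ j, SmS n (s j) := fun j => (hs j).choose_spec.smooth
  have hsub := tgW_sub (n := n) W₀ x
  have g1 : ∀ v, Sol (P.loc x) (tgW n W₀ x) (fun y => frm n x s y v) := by
    intro v
    obtain ⟨f, hf⟩ := cClosed_harm_sum hU hN P hb s hs v
    have h1 := hHarm n N M P f _ hf x
    have h2 : (fun y => frm n x s y v) = lu (𝓡∂ n) x (∑ j, v j • s j) :=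
      funext fun y => cClosed_frm_apply x s y v
    rw [h2]
    exact cERel_solMono h1 hsub
  have g2 : ∀ a, Sol (P.loc x) (tgW n W₀ x) (lu (𝓡∂ n) x (t a)) := by
    intro a
    obtain ⟨f, hf⟩ := ht a
    exact cERel_solMono (hHarm n N M P f _ hf x) hsub
  have g3 : xc n x x ∈ tgW n W₀ x := ⟨(xc n x).map_source (mem_extChartAt_source x), by
    rw [mem_preimage, extChartAt_to_inv]; exact hxW⟩
  obtain ⟨Y, W, r₀, hr₀, h⟩ := hBM n N (P.loc x) (tgW n W₀ x) κ cp j0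
    (tgW_rel (hLoc n N M).1 hW₀ x) (cERel_okMono ((hLoc n N M).2.1 P x) hsub) (hP x)
    (frm n x s) (fun a => lu (𝓡∂ n) x (t a)) ((cClosed_frm_smooth hLoc x s hss).mono hsub) g1 g2
    (xc n x x) g3 hu hd (Or.inl ⟨cClosed_pos hLoc hx, hpos⟩)
  refine ⟨Y, W, r₀, hr₀, fun r hr hrr => ?_⟩
  obtain ⟨D₁, hD, hD'⟩ := h r hr hrr
  exact ⟨D₁, hD.trans hsub, hD'⟩

/-- One model near a boundary point in `W₀`. -/
theorem wSetup_one (hB : BModel_statement) (hH : CHarm_statement.{u})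
    (hU : CUniq_statement.{u}) (hL : CLoc_statement.{u})
    (P : One n N M) (Γ : Set M) (κ : ℝ) (cp : Cpl n N) (hbd : ((𝓡∂ n).boundary M).Nonempty) (j0 : Fin N)
    (q : M) (z : E n) (r : ℝ) (s : Fin N → M → Fib N) (t : Fin n → M → Fib N) (hz : z 0 = 0)
    (hr : 0 < r) (hsub : HB z r ⊆ tg n q) (hΓ : ∀ y ∈ HB z r, y 0 = 0 → (xc n q).symm y ∈ Γ)
    (hs : ∀ j, ∃ f, P.Harm f (s j)) (ht : ∀ a, ∃ f, P.Harm f (t a))
    (hvs : ∀ y ∈ HB z r, y 0 = 0 → ∀ j, s j ((xc n q).symm y) = EuclideanSpace.single j 1)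
    (hvt : ∀ y ∈ HB z r, y 0 = 0 → ∀ a,
      t a ((xc n q).symm y) = EuclideanSpace.single j0 (y a : ℂ))
    (hpos : 0 < (pd 0 (lu (𝓡∂ n) q (t 0)) z j0).re) {W₀ : Set M} (hW₀ : IsOpen W₀)
    (hE : EYMw κ cp P W₀) (hzW : (xc n q).symm z ∈ W₀) :
    ∃ (W : Model n N) (X Y : E n → E n) (S : E n → EndF N) (r₀ : ℝ), 0 < r₀ ∧
      ∀ r, 0 < r → r ≤ r₀ → ∃ D : Set (E n), BdM P Γ q z r κ cp j0 W D X Y S s t := by
  obtain ⟨hRel, hOk, -, hSm⟩ := hL n N M
  have hD : RelOpen (tgW n W₀ q) := tgW_rel hRel hW₀ q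
  have hDs : tgW n W₀ q ⊆ tg n q := tgW_sub W₀ q
  have hlok : (P.loc q).Ok (tgW n W₀ q) := cERel_okMono (hOk P q) hDs
  have hsS : ∀ j, ContDiffOn ℝ ∞ (lu (𝓡∂ n) q (s j)) (tgW n W₀ q) := fun j => by
    obtain ⟨f, hf⟩ := hs j
    exact (hSm (s j) hf.smooth q).mono hDs
  have hS : ContDiffOn ℝ ∞ (frm n q s) (tgW n W₀ q) := cSetup_frm_smooth hsS
  have hSv : ∀ v : Fib N, Sol (P.loc q) (tgW n W₀ q) (fun x => frm n q s x v) := by
    intro v
    obtain ⟨g, hg⟩ := cSetup_harm_sum P (hU n N M P hbd).2.1 hs v j0 Finset.univ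
    have h1 := hH n N M P g _ hg q
    have h2 : lu (𝓡∂ n) q (∑ j, v j • s j) = fun x => frm n q s x v := by
      funext x
      rw [cSetup_frm_apply]
      unfold lu
      rw [Finset.sum_apply]
      rfl
    rw [h2] at h1
    exact cERel_solMono h1 hDs
  have hTs : ∀ a, Sol (P.loc q) (tgW n W₀ q) (lu (𝓡∂ n) q (t a)) := fun a => by
    obtain ⟨f, hf⟩ := ht a
    exact cERel_solMono (hH n N M P f _ hf q) hDs
  -- shrink the half ball
  obtain ⟨r, hr, hsub, hΓ, hvs, hvt⟩ : ∃ r > 0, HB z r ⊆ tgW n W₀ q ∧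
      (∀ y ∈ HB z r, y 0 = 0 → (xc n q).symm y ∈ Γ) ∧
      (∀ y ∈ HB z r, y 0 = 0 → ∀ j, s j ((xc n q).symm y) = EuclideanSpace.single j 1) ∧
      (∀ y ∈ HB z r, y 0 = 0 → ∀ a,
        t a ((xc n q).symm y) = EuclideanSpace.single j0 (y a : ℂ)) := by
    have hz1 : z ∈ tgW n W₀ q := ⟨hsub (cSetup_mem_HB hz hr), hzW⟩
    obtain ⟨O, hO, hDO⟩ := hD
    have hzO : z ∈ O := by
      rw [hDO] at hz1
      exact hz1.1
    obtain ⟨ε, hε, hεO⟩ := Metric.isOpen_iff.1 hO z hzO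
    have hm1 : HB z (min r ε) ⊆ HB z r :=
      inter_subset_inter_left _ (Metric.ball_subset_ball (min_le_left _ _))
    refine ⟨min r ε, lt_min hr hε, ?_, fun y hy => hΓ y (hm1 hy), fun y hy => hvs y (hm1 hy),
      fun y hy => hvt y (hm1 hy)⟩
    rw [hDO]
    exact inter_subset_inter_left _ ((Metric.ball_subset_ball (min_le_right _ _)).trans hεO)
  have hzm := cSetup_mem_HB hz hr
  have hS1 : ∀ y ∈ HB z r, y 0 = 0 → frm n q s y = 1 := fun y hy h0 =>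
    cSetup_frm_one q s y (hvs y hy h0)
  obtain ⟨hX, hdet, h00⟩ := cSetup_local (j0 := j0) (T := fun a => lu (𝓡∂ n) q (t a)) hD hS
    (fun a => (hTs a).1) hr hz hsub hS1 (fun y hy h0 a => hvt y hy h0 a) hpos
  set X : E n → E n := Xco j0 (frm n q s) (fun a => lu (𝓡∂ n) q (t a)) with hXdef
  have hXz : X z = z := hX z hzm hz
  obtain ⟨Y, W, r₁, hr₁, hmod⟩ := hB n N (P.loc q) (tgW n W₀ q) κ cp j0 hD hlok (hE q) (frm n q s)
    (fun a => lu (𝓡∂ n) q (t a)) hS hSv hTs z (hsub hzm)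
    (by rw [hS1 z hzm hz]; exact isUnit_one) hdet
    (Or.inr ⟨hz, h00, r, hr, fun x hx h0 => by
      show X x 0 = 0
      rw [hX x hx h0, h0]⟩)
  rw [← hXdef, hXz] at hmod
  obtain ⟨D1, hD1D, hD1r, hzD1, hpull1, -, -⟩ := hmod r₁ hr₁ le_rfl
  obtain ⟨O, hO, hDO⟩ := hD1r
  have hzO : z ∈ O := by
    have : z ∈ O ∩ Hs n := by rw [← hDO]; exact hzD1
    exact this.1
  obtain ⟨ε, hε, hεO⟩ := Metric.isOpen_iff.1 hO z hzO
  have hεD : HB z ε ⊆ D1 := by
    rw [hDO]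
    exact inter_subset_inter_left _ hεO
  have hYflat : ∀ y, y ∈ HB z ε → y ∈ HB z r → y 0 = 0 → Y y = y := by
    intro y hy hy' h0
    have h1 := hpull1.diffeo.inv1 y (hεD hy)
    rw [hX y hy' h0] at h1
    exact h1
  have hYz : Y z = z := hYflat z (cSetup_mem_HB hz hε) hzm hz
  have hYc : ContinuousWithinAt Y (HB z r₁) z :=
    hpull1.diffeo.smY.continuousOn z (cSetup_mem_HB hz hr₁)
  have hev : ∀ᶠ y in 𝓝[HB z r₁] z, Y y ∈ Metric.ball z r := by
    have h1 : Metric.ball z r ∈ 𝓝 (Y z) := by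
      rw [hYz]
      exact Metric.ball_mem_nhds z hr
    exact hYc.eventually h1
  obtain ⟨δ, hδ, hδY⟩ := Metric.mem_nhdsWithin_iff.1 hev
  refine ⟨W, X, Y, frm n q s, min (min r r₁) (min ε δ), by (clear * - hr hr₁ hε hδ; positivity), ?_⟩
  intro ρ hρ hρle
  have hρr : ρ ≤ r := hρle.trans ((min_le_left _ _).trans (min_le_left _ _))
  have hρ1 : ρ ≤ r₁ := hρle.trans ((min_le_left _ _).trans (min_le_right _ _))
  have hρε : ρ ≤ ε := hρle.trans ((min_le_right _ _).trans (min_le_left _ _))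
  have hρδ : ρ ≤ δ := hρle.trans ((min_le_right _ _).trans (min_le_right _ _))
  obtain ⟨D, hDD, hDr, hzD, hpull, hmodel, hcoord⟩ := hmod ρ hρ hρ1
  have hmono : ∀ {a b : ℝ}, a ≤ b → HB z a ⊆ HB z b := fun hab =>
    inter_subset_inter_left _ (Metric.ball_subset_ball hab)
  refine ⟨D, ?_⟩
  refine
    { rel := hDr
      sub := hDD.trans hDs
      z0 := hz
      rpos := hρ
      pull := hpull
      model := hmodel
      bd := ?_
      bdD := ?_
      frame := fun x _ v => cSetup_frm_apply q s x v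
      coord := hcoord }
  · intro y hy h0
    have hyr := hmono hρr hy
    have hyY : Y y = y := hYflat y (hmono hρε hy) hyr h0
    refine ⟨?_, hX y hyr h0, hyY, hS1 y hyr h0, hΓ y hyr h0⟩
    have h1 := hpull.diffeo.mapsY hy
    rw [hyY] at h1
    exact h1
  · intro x hx h0
    have hXx : X x ∈ HB z ρ := hpull.diffeo.mapsX hx
    have hYX : Y (X x) = x := hpull.diffeo.inv1 x hx
    have hxb : x ∈ Metric.ball z r := by
      have h1 : X x ∈ Metric.ball z δ ∩ HB z r₁ :=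
        ⟨Metric.ball_subset_ball hρδ hXx.1, hmono hρ1 hXx⟩
      have h2 : Y (X x) ∈ Metric.ball z r := hδY h1
      rw [hYX] at h2
      exact h2
    have hxr : x ∈ HB z r := ⟨hxb, hDr.subset hx⟩
    rw [hX x hxr h0] at hXx
    exact hXx

end Man

end Vale.Agent.P088.EYM.G
end
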