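import Vale.Agent.P088.TM.H275BC
import Vale.Agent.P088.TM.G.Loc1

/-!
# P088, two manifolds: local representations by arbitrary parametrisations
-/

set_option linter.all false

open Bundle Manifold MeasureTheory Set Filter Topology
open scoped ContDiff

noncomputable section

namespace Vale.Agent.P088.TM.G

export Vale.Agent.P088.EYM.G (Cpl EYMeq IsModel EYMm EYMw EYMw_mono EYMw_of wClosed_model wSetup_one bPush bModel BPush_statement BModel_statement BRigInt_statement BRigBd_statement bRigInt bRigBd dbd DBd_statement)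

open Vale.Agent.P088 Vale.Agent.P088.EYM

universe u

theorem fRigInt : BRigInt_statement := bRigInt ucpV
theorem fRigBd : BRigBd_statement := bRigBd ucpVBd

section Loc

variable {n N : ℕ} [NeZero n]

theorem eym_mono {κ : ℝ} {cp : Cpl n N} {L : LD n N} {D D' : Set (E n)} (h : EYMeq κ cp L D)
    (hD : D' ⊆ D) : EYMeq κ cp L D' where
  ein := fun x hx => h.ein x (hD hx)
  ym := fun x hx => h.ym x (hD hx)

end Loc

section Mfd

variable {n N : ℕ} [NeZero n]
  {M : Type u} [TopologicalSpace M] [ChartedSpace (EuclideanHalfSpace n) M]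
  [IsManifold (𝓡∂ n) ∞ M] [T2Space M] [CompactSpace M] [MeasurableSpace M] [BorelSpace M]

/-- Change of coordinates. -/
theorem bc_trans {P : One n N M} {e : E n → M} {L : LD n N} {D₀ : Set (E n)} (h : BC P e L D₀)
    {D D' : Set (E n)} (hD : RelOpen D) (hDs : D ⊆ D₀) (hD' : RelOpen D') {X Y : E n → E n}
    (hd : IsDiffeo D D' X Y) (hb : ∀ y ∈ D', (Y y 0 = 0 ↔ y 0 = 0)) :
    ∃ L' : LD n N, BC P (fun y => e (Y y)) L' D' ∧ IsPull L L' D D' X Y (fun _ => 1) ∧
      ∀ κ cp, EYMeq κ cp L D₀ → EYMeq κ cp L' D' := by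
  have hLD : L.Ok D := cERel_okMono h.ok hDs
  obtain ⟨L', hL', hpull, heym⟩ := bPush n N L D D' X Y (fun _ => 1) hD hD' hLD hd
    contDiffOn_const (fun _ _ => isUnit_one)
  refine ⟨L', ?_, hpull, fun κ cp hE => heym κ cp (eym_mono hE hDs)⟩
  have hXc : ContinuousOn X D := hd.smX.continuousOn
  have hYc : ContinuousOn Y D' := hd.smY.continuousOn
  have himg : ∀ D₁ ⊆ D', (fun y => e (Y y)) '' D₁ = e '' (D ∩ X ⁻¹' D₁) := by
    intro D₁ h1
    rw [← image_eq_preimage hd h1, image_image]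
  have hrel : ∀ D₁, RelOpen D₁ → RelOpen (D ∩ X ⁻¹' D₁) := fun D₁ h1 =>
    relOpen_preimage hD hXc hd.mapsX hD' h1
  have hsmc : ∀ u : M → Fib N, SmS n u → ContDiffOn ℝ ∞ (fun y => u (e (Y y))) D' :=
    fun u hu => (h.sm u hu).comp hd.smY fun y hy => hDs (hd.mapsY hy)
  have hEn : ∀ D₁, RelOpen D₁ → D₁ ⊆ D' → ∀ u v : M → Fib N, SmS n u → SmS n v →
      En L (D ∩ X ⁻¹' D₁) (fun y => u (e y)) (fun y => v (e y)) =
        En L' D₁ (fun y => u (e (Y y))) (fun y => v (e (Y y))) := by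
    intro D₁ h1 h2 u v hu hv
    have hp := pull_restrict hpull h2
    have e1 := bEnergy n N L L' (D ∩ X ⁻¹' D₁) D₁ X Y (fun _ => 1) (hrel D₁ h1) h1
      (cERel_okMono hLD inter_subset_left) (cERel_okMono hL' h2) hp
      (fun y => u (e (Y y))) (fun y => v (e (Y y)))
      (((hsmc u hu).mono h2).of_le (by norm_cast)) (((hsmc v hv).mono h2).of_le (by norm_cast))
    rw [← e1]
    refine CRel1_En_congr (hrel D₁ h1) _ (fun x hx => ?_) (fun x hx => ?_)
    · show u (e x) = (1 : EndF N) (u (e (Y (X x))))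
      rw [hd.inv1 x hx.1]; rfl
    · show v (e x) = (1 : EndF N) (v (e (Y (X x))))
      rw [hd.inv1 x hx.1]; rfl
  refine
    { rel := hD'
      ok := hL'
      h1 := fun y hy => ?_
      inj := fun y hy y' hy' hyy => ?_
      cont := h.cont.comp hYc fun y hy => hDs (hd.mapsY hy)
      op := fun D₁ h1 h2 => ?_
      bd := fun y hy => ?_
      sm := hsmc
      sol := fun f u hu => ?_
      en := fun D₁ h1 h2 u v hu hv hs => ?_
      en' := fun D₁ h1 h2 u hu => ?_
      ext := fun c D₁ K h1 h2 hc hK hKD h0 => ?_ }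
  · have e1 := hpull.h_eq (Y y) (hd.mapsY hy)
    rw [hd.inv2 y hy, h.h1 _ (hDs (hd.mapsY hy))] at e1
    rw [← e1, mul_one, mul_one]
    exact star_one (EndF N)
  · have e1 := h.inj (hDs (hd.mapsY hy)) (hDs (hd.mapsY hy')) hyy
    rw [← hd.inv2 y hy, ← hd.inv2 y' hy', e1]
  · rw [himg D₁ h1]
    exact h.op _ (inter_subset_left.trans hDs) (hrel D₁ h2)
  · rw [h.bd _ (hDs (hd.mapsY hy)), hb y hy]
  · have h1 : Sol L D (fun y => u (e y)) := cERel_solMono (h.sol f u hu) hDs
    refine bSol n N L L' D D' X Y (fun _ => 1) hD hD' hLD hL' hpull _ ?_ (hsmc u hu.smooth)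
    refine cERel_sol_congr L hD ?_ h1
    intro x hx
    show u (e x) = (1 : EndF N) (u (e (Y (X x))))
    rw [hd.inv1 x hx]; rfl
  · rw [himg D₁ h2] at hs
    rw [h.en _ (hrel D₁ h1) (inter_subset_left.trans hDs) u v hu hv hs]
    exact hEn D₁ h1 h2 u v hu hv
  · have e1 := h.en' _ (hrel D₁ h1) (inter_subset_left.trans hDs) u hu
    rw [hEn D₁ h1 h2 u u hu hu] at e1
    exact e1
  · have hKi : IsCompact (Y '' K) := hK.image_of_continuousOn (hYc.mono (hKD.trans h2))
    obtain ⟨u, hu1, hu2, hu3, hu4⟩ := h.ext (fun x => c (X x)) (D ∩ X ⁻¹' D₁) (Y '' K)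
      (hrel D₁ h1) (inter_subset_left.trans hDs)
      (hc.comp (hd.smX.mono inter_subset_left) fun x hx => hx.2) hKi
      (by
        rintro x ⟨y, hy, rfl⟩
        refine ⟨hd.mapsY (h2 (hKD hy)), ?_⟩
        show X (Y y) ∈ D₁
        rw [hd.inv2 y (h2 (hKD hy))]
        exact hKD hy)
      (fun x hx hxK => h0 _ hx.2 fun hxX => hxK ⟨X x, hxX, hd.inv1 x hx.1⟩)
    refine ⟨u, hu1, fun y hy => ?_, fun x hx => hu3 x ?_, ?_⟩
    · have e1 : Y y ∈ D ∩ X ⁻¹' D₁ := by
        refine ⟨hd.mapsY (h2 hy), ?_⟩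
        show X (Y y) ∈ D₁
        rw [hd.inv2 y (h2 hy)]
        exact hy
      rw [hu2 _ e1, hd.inv2 y (h2 hy)]
    · rw [image_image]
      exact hx
    · rw [image_image] at hu4
      exact hu4

end Mfd

end Vale.Agent.P088.TM.G
end
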