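import Vale.Agent.P088.TM.H275E
import Vale.Agent.P088.TM.G.H275R

/-!
# P088, two manifolds: the energy relation and the equality of the fluxes
-/

set_option linter.all false

open Bundle Manifold MeasureTheory Set Filter Topology
open scoped ContDiff

noncomputable section

namespace Vale.Agent.P088.TM.G

open Vale.Agent.P088 Vale.Agent.P088.EYM

universe u

section One

variable {n N : ℕ} [NeZero n] {M : Type u}
  [TopologicalSpace M] [ChartedSpace (EuclideanHalfSpace n) M] [IsManifold (𝓡∂ n) ∞ M]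
  [MeasurableSpace M]

/-- The section in the model which corresponds to `v`. -/
theorem pcSide {P : One n N M} {e : E n → M} {L : LD n N} {D₀ : Set (E n)} (b : BC P e L D₀)
    {z : E n} {r₀ κ : ℝ} {cp : Cpl n N} {j0 : Fin N} {W : Model n N} {D : Set (E n)} {X Y : E n → E n}
    {S : E n → EndF N} {s : Fin N → M → Fib N} {t : Fin n → M → Fib N}
    (hB : BdE e L D₀ z r₀ κ cp j0 W D X Y S s t) {f v : M → Fib N} (hv : P.Harm f v) :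
    ContDiffOn ℝ ∞ (fun y => Ring.inverse (S (Y y)) (v (e (Y y)))) (HB z r₀) ∧
      (∀ x ∈ D, v (e x) = S x ((fun y => Ring.inverse (S (Y y)) (v (e (Y y)))) (X x))) ∧
      Sol W.toLD (HB z r₀) (fun y => Ring.inverse (S (Y y)) (v (e (Y y)))) := by
  have hp := hB.pull
  have hd := hp.diffeo
  have hlu : Sol L D₀ (fun y => v (e y)) := b.sol f v hv
  have hsm : ContDiffOn ℝ ∞ (fun y => Ring.inverse (S (Y y)) (v (e (Y y)))) (HB z r₀) := by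
    refine smooth_eval ?_ ((hlu.1.mono hB.sub).comp hd.smY hd.mapsY)
    exact smooth_ringInverse (hp.smS.comp hd.smY hd.mapsY) fun y hy => hp.unit _ (hd.mapsY hy)
  have heq : ∀ x ∈ D, v (e x) =
        S x ((fun y => Ring.inverse (S (Y y)) (v (e (Y y)))) (X x)) := by
    intro x hx
    simp only
    rw [hd.inv1 x hx]
    have h1 : S x * Ring.inverse (S x) = 1 := Ring.mul_inverse_cancel _ (hp.unit x hx)
    have h2 := congrArg (fun T : EndF N => T (v (e x))) h1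
    simp only [ContinuousLinearMap.mul_apply, ContinuousLinearMap.one_apply] at h2
    exact h2.symm
  refine ⟨hsm, heq, ?_⟩
  refine bSol n N L W.toLD D (HB z r₀) X Y S hB.rel (cERel_relOpen_HB z r₀)
    (cERel_okMono b.ok hB.sub) hB.model.ok hp _ ?_ hsm
  exact cERel_sol_congr _ hB.rel (fun x hx => heq x hx) (cERel_solMono hlu hB.sub)

theorem pcH_eq {P : One n N M} {e : E n → M} {L : LD n N} {D₀ : Set (E n)} (b : BC P e L D₀)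
    {z : E n} {r₀ κ : ℝ} {cp : Cpl n N} {j0 : Fin N} {W : Model n N} {D : Set (E n)} {X Y : E n → E n}
    {S : E n → EndF N} {s : Fin N → M → Fib N} {t : Fin n → M → Fib N}
    (hB : BdE e L D₀ z r₀ κ cp j0 W D X Y S s t) {x : E n}
    (hx : x ∈ HB z r₀) (hx0 : x 0 = 0) : W.h x = 1 := by
  obtain ⟨h1, h2, h3, h4⟩ := hB.bd x hx hx0
  have h := hB.pull.h_eq x h1
  rw [h2, h4, b.h1 x (hB.sub h1)] at h
  rw [← h]
  change ContinuousLinearMap.adjoint (1 : EndF N) * 1 * 1 = 1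
  rw [mul_one, mul_one]
  exact ContinuousLinearMap.adjoint_id

end One

variable {n N : ℕ} [NeZero n] {M₁ M₂ : Type u}
  [TopologicalSpace M₁] [ChartedSpace (EuclideanHalfSpace n) M₁] [IsManifold (𝓡∂ n) ∞ M₁]
  [TopologicalSpace M₂] [ChartedSpace (EuclideanHalfSpace n) M₂] [IsManifold (𝓡∂ n) ∞ M₂]
  [MeasurableSpace M₁] [MeasurableSpace M₂]
  {P : One n N M₁} {Q : One n N M₂} {G : Gl M₁ M₂} {e₁ : E n → M₁} {e₂ : E n → M₂}
  {L₁ L₂ : LD n N} {D₀ : Set (E n)}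
  [T2Space M₁] [CompactSpace M₁] [ConnectedSpace M₁] [BorelSpace M₁]
  [T2Space M₂] [CompactSpace M₂] [ConnectedSpace M₂] [BorelSpace M₂]

theorem pcERel (hP : PC P Q G e₁ e₂ L₁ L₂ D₀) (hG : G.Ok n N) (hS : SameD P Q G)
    {z : E n} {r₀ κ₁ κ₂ : ℝ} {cp : Cpl n N} {j0 : Fin N} {W₁ W₂ : Model n N} {D₁ D₂ : Set (E n)}
    {X₁ Y₁ X₂ Y₂ : E n → E n} {S₁ S₂ : E n → EndF N}
    {s₁ : Fin N → M₁ → Fib N} {s₂ : Fin N → M₂ → Fib N} {t₁ : Fin n → M₁ → Fib N}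
    {t₂ : Fin n → M₂ → Fib N}
    (hB₁ : BdE e₁ L₁ D₀ z r₀ κ₁ cp j0 W₁ D₁ X₁ Y₁ S₁ s₁ t₁)
    (hB₂ : BdE e₂ L₂ D₀ z r₀ κ₂ cp j0 W₂ D₂ X₂ Y₂ S₂ s₂ t₂)
    (r : ℝ) (hr : 0 < r) (hrr : r < r₀) :
    (∃ C : ℝ, ERel W₁.toLD W₂.toLD z r C) ∧
      ∀ u ∈ PP P Q G, ∀ x ∈ HB z r, x 0 = 0 →
        (fun y => Ring.inverse (S₁ (Y₁ y)) (u.1 (e₁ (Y₁ y)))) x =
          (fun y => Ring.inverse (S₂ (Y₂ y)) (u.2 (e₂ (Y₂ y)))) x ∧
        flux W₁.toLD 0 (fun y => Ring.inverse (S₁ (Y₁ y)) (u.1 (e₁ (Y₁ y)))) x =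
          flux W₂.toLD 0 (fun y => Ring.inverse (S₂ (Y₂ y)) (u.2 (e₂ (Y₂ y)))) x := by
  have hbd₁ : ((𝓡∂ n).boundary M₁).Nonempty := bne hG.rel₁ hG.ne₁
  have hbd₂ : ((𝓡∂ n).boundary M₂).Nonempty := bne hG.rel₂ hG.ne₂
  obtain ⟨C₁, hC₁, Z₁, hZ₁, hE₁, hR₁⟩ := pcRel1 hbd₁ hP.b1 hB₁ r hr hrr
  obtain ⟨C₂, hC₂, Z₂, hZ₂, hE₂, hR₂⟩ := pcRel1 hbd₂ hP.b2 hB₂ r hr hrr
  obtain ⟨hU, -, -⟩ := fUniq n N M₁ P hbd₁
  obtain ⟨hU₂, -, -⟩ := fUniq n N M₂ Q hbd₂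
  -- the two extensions are matched
  have hZZ : ∀ c, TstH z r c → MD n G (Z₁ c) (Z₂ c) := by
    intro c hc
    obtain ⟨a1, a2, a3, a4⟩ := hZ₁ c hc
    obtain ⟨c1, c2, c3, c4⟩ := hZ₂ c hc
    exact hP.md hG a1 c1 (a2.trans (image_mono hB₁.sub)) (c2.trans (image_mono hB₂.sub))
      fun y hy hy0 => by rw [a4 y hy hy0, c4 y hy hy0]
  have key : ∀ c d, TstH z r c → TstH z r d → ∃ (u₁ v₁ : M₁ → Fib N) (u₂ v₂ : M₂ → Fib N),
      P.Harm (Z₁ c) u₁ ∧ P.Harm (Z₁ d) v₁ ∧ Q.Harm (Z₂ c) u₂ ∧ Q.Harm (Z₂ d) v₂ ∧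
      P.E u₁ v₁ = Q.E u₂ v₂ := by
    intro c d hc hd
    obtain ⟨u₁, v₁, u₂, v₂, h1, h2, h3, h4, h5⟩ := hS _ _ _ _ (hZZ c hc) (hZZ d hd)
    exact ⟨u₁, v₁, u₂, v₂, h1, h2, h3, h4, h5⟩
  have hsub : HB z r ⊆ HB z r₀ := fun x hx => ⟨Metric.ball_subset_ball hrr.le hx.1, hx.2⟩
  refine ⟨⟨C₁ + C₂, ?_, ?_, ?_⟩, ?_⟩
  · intro c d hc hd
    obtain ⟨u₁, v₁, u₂, v₂, h1, h2, h3, h4, h5⟩ := key c d hc hd
    have e1 := (hR₁ c d hc hd u₁ v₁ h1 h2).1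
    have e2 := (hR₂ c d hc hd u₂ v₂ h3 h4).1
    have e3 : ‖En W₁.toLD (HB z r) c d - En W₂.toLD (HB z r) c d‖ ≤
        ‖En W₁.toLD (HB z r) c d - P.E u₁ v₁‖ + ‖En W₂.toLD (HB z r) c d - Q.E u₂ v₂‖ := by
      have : En W₁.toLD (HB z r) c d - En W₂.toLD (HB z r) c d =
          (En W₁.toLD (HB z r) c d - P.E u₁ v₁) - (En W₂.toLD (HB z r) c d - Q.E u₂ v₂) := by
        rw [h5]
        ring
      rw [this]
      exact norm_sub_le _ _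
    exact e3.trans (cERel_arith hC₁ hC₂ (cERel_rem_nonneg _ _ _ _) (cERel_rem_nonneg _ _ _ _)
      (cERel_rem_nonneg _ _ _ _) (cERel_rem_nonneg _ _ _ _) e1 e2)
  · intro c hc
    obtain ⟨u₁, v₁, u₂, v₂, h1, h2, h3, h4, h5⟩ := key c c hc hc
    have huv : v₁ = u₁ := hU _ _ _ _ h2 h1 fun x _ => rfl
    have e1 := (hR₁ c c hc hc u₁ v₁ h1 h2).2
    have e2 := (hR₂ c c hc hc u₂ v₂ h3 h4).1
    have e3 := (Complex.abs_re_le_norm _).trans e2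
    rw [Complex.sub_re, ← h5, huv] at e3
    have e4 := (abs_le.1 e3).2
    have e5 := mul_nonneg hC₁ (sq_nonneg (Rem W₂.toLD z r c))
    nlinarith
  · intro c hc
    obtain ⟨u₁, v₁, u₂, v₂, h1, h2, h3, h4, h5⟩ := key c c hc hc
    have huv : v₂ = u₂ := hU₂ _ _ _ _ h4 h3 fun x _ => rfl
    have e1 := (hR₂ c c hc hc u₂ v₂ h3 h4).2
    have e2 := (hR₁ c c hc hc u₁ v₁ h1 h2).1
    have e3 := (Complex.abs_re_le_norm _).trans e2
    rw [Complex.sub_re, h5, huv] at e3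
    have e4 := (abs_le.1 e3).2
    have e5 := mul_nonneg hC₂ (sq_nonneg (Rem W₁.toLD z r c))
    nlinarith
  · intro u hu x hx hx0
    obtain ⟨f, f', hf, hfu₁, hfu₂⟩ := id hu
    obtain ⟨s1, s2, s3⟩ := pcSide hP.b1 hB₁ hfu₁
    obtain ⟨t1, t2, t3⟩ := pcSide hP.b2 hB₂ hfu₂
    refine ⟨?_, ?_⟩
    · obtain ⟨a1, -, a3, a4⟩ := hB₁.bd x (hsub hx) hx0
      obtain ⟨-, -, b3, b4⟩ := hB₂.bd x (hsub hx) hx0
      have hxD := hB₁.sub a1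
      simp only [a3, a4, b3, b4, Ring.inverse_one, ContinuousLinearMap.one_apply]
      rw [hfu₁.boundary _ ((hP.b1.bd x hxD).2 hx0), hfu₂.boundary _ ((hP.b2.bd x hxD).2 hx0),
        hf.eq _ (hP.m2 x hxD hx0), hP.eq x hxD hx0]
    · refine aFlux n N W₁.toLD W₂.toLD z r hr hB₁.z0 (cERel_okMono hB₁.model.ok hsub)
        (cERel_okMono hB₂.model.ok hsub) ?_ _ _ (cERel_solMono s3 hsub) (cERel_solMono t3 hsub)
        ?_ x hx hx0
      · intro y hy hy0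
        rw [pcH_eq hP.b1 hB₁ (hsub hy) hy0, pcH_eq hP.b2 hB₂ (hsub hy) hy0]
      · intro c hc
        have hcH := cERel_tstH hc
        rw [← hE₁ c hcH u.1 hfu₁.smooth _ s1 s2, ← hE₂ c hcH u.2 hfu₂.smooth _ t1 t2]
        exact PC.dataE hG hS hu (hZZ c hcH)

end Vale.Agent.P088.TM.G
end
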