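import Vale.Agent.P088.TM.H275N
import Vale.Agent.P088.TM.G.H275E

/-!
# P088, two manifolds: the match near the boundary
-/

set_option linter.all false

open Bundle Manifold MeasureTheory Set Filter Topology
open scoped ContDiff

noncomputable section

namespace Vale.Agent.P088.TM.G

open Vale.Agent.P088 Vale.Agent.P088.EYM

universe u

variable {n N : ℕ} [NeZero n] {M₁ M₂ : Type u}
  [TopologicalSpace M₁] [ChartedSpace (EuclideanHalfSpace n) M₁] [IsManifold (𝓡∂ n) ∞ M₁]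
  [TopologicalSpace M₂] [ChartedSpace (EuclideanHalfSpace n) M₂] [IsManifold (𝓡∂ n) ∞ M₂]
  [MeasurableSpace M₁] [MeasurableSpace M₂]
  {P : One n N M₁} {Q : One n N M₂} {G : Gl M₁ M₂} {e₁ : E n → M₁} {e₂ : E n → M₂}
  {L₁ L₂ : LD n N} {D₀ : Set (E n)}
  [T2Space M₁] [CompactSpace M₁] [ConnectedSpace M₁] [BorelSpace M₁]
  [T2Space M₂] [CompactSpace M₂] [ConnectedSpace M₂] [BorelSpace M₂]

/-- Equal models near the boundary. -/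
theorem pcNear (hP : PC P Q G e₁ e₂ L₁ L₂ D₀) (hG : G.Ok n N) (hS : SameD P Q G) (hn : 3 ≤ n)
    (hN : 0 < N) {z₀ : E n} (hz₀t : z₀ ∈ D₀) (hz₀0 : z₀ 0 = 0) (κ₁ κ₂ : ℝ) (cp : Cpl n N)
    (hE₁ : EYMeq κ₁ cp L₁ D₀) (hE₂ : EYMeq κ₂ cp L₂ D₀) :
    κ₁ = κ₂ ∧ ∃ (z : E n) (r : ℝ) (Λ₁ Λ₂ : LD n N) (D₁ D₂ : Set (E n))
      (X₁ Y₁ X₂ Y₂ : E n → E n) (S₁ S₂ : E n → EndF N), z 0 = 0 ∧ 0 < r ∧ RelOpen D₁ ∧
      RelOpen D₂ ∧ D₁ ⊆ D₀ ∧ D₂ ⊆ D₀ ∧ z ∈ D₁ ∧ z ∈ D₂ ∧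
      IsPull L₁ Λ₁ D₁ (HB z r) X₁ Y₁ S₁ ∧ IsPull L₂ Λ₂ D₂ (HB z r) X₂ Y₂ S₂ ∧
      (∀ x ∈ HB z r, Λ₁.g x = Λ₂.g x) ∧ (∀ x ∈ HB z r, ∀ j, Λ₁.B j x = Λ₂.B j x) ∧
      (∀ x ∈ HB z r, Λ₁.h x = Λ₂.h x) ∧
      ∀ u ∈ PP P Q G, ∀ x ∈ HB z r, Ring.inverse (S₁ (Y₁ x)) (u.1 (e₁ (Y₁ x))) =
        Ring.inverse (S₂ (Y₂ x)) (u.2 (e₂ (Y₂ x))) := by
  obtain ⟨j0, z, r₀, s, t, W₁, W₂, X₁, Y₁, X₂, Y₂, S₁, S₂, hr₀, hs, ht, hBd⟩ :=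
    pcSetup hP hG hS (by omega) hN hz₀t hz₀0 κ₁ κ₂ cp hE₁ hE₂
  obtain ⟨D₁, D₂, b1, b2⟩ := hBd r₀ hr₀ le_rfl
  have hr : 0 < r₀ / 2 := by positivity
  set r : ℝ := r₀ / 2 with hrdef
  have hrr : r < r₀ := by rw [hrdef]; linarith
  obtain ⟨D₁', D₂', c1, c2⟩ := hBd r hr hrr.le
  obtain ⟨⟨C, hC⟩, hdat⟩ := pcERel hP hG hS b1 b2 r hr hrr
  have hHB : HB z r ⊆ HB z r₀ := inter_subset_inter_left _ (Metric.ball_subset_ball hrr.le)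
  have hcomb : ∀ (v : Fib N) (F : Finset (Fin N)), (∑ j ∈ F, v j • s j) ∈ PP P Q G := by
    intro v F
    induction F using Finset.induction_on with
    | empty =>
      have := pp_lin hG 0 0 (hs ⟨0, hN⟩) (hs ⟨0, hN⟩)
      simpa using this
    | insert j F hj ih =>
      rw [Finset.sum_insert hj]
      have := pp_lin hG (v j) 1 (hs j) ih
      simpa using this
  have d1const : ∀ v : Fib N, ∀ y ∈ HB z r₀,
      Ring.inverse (S₁ (Y₁ y)) ((∑ j, v j • s j).1 (e₁ (Y₁ y))) = v := by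
    intro v y hy
    have hx := b1.pull.diffeo.mapsY hy
    have h1 := b1.frame _ hx v
    have h2 : (∑ j, v j • s j).1 (e₁ (Y₁ y)) = S₁ (Y₁ y) v := by
      rw [h1]
      simp [Prod.fst_sum, Finset.sum_apply]
    rw [h2]
    show (Ring.inverse (S₁ (Y₁ y)) * S₁ (Y₁ y)) v = v
    rw [Ring.inverse_mul_cancel _ (b1.pull.unit _ hx)]
    rfl
  have d2const : ∀ v : Fib N, ∀ y ∈ HB z r₀,
      Ring.inverse (S₂ (Y₂ y)) ((∑ j, v j • s j).2 (e₂ (Y₂ y))) = v := by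
    intro v y hy
    have hx := b2.pull.diffeo.mapsY hy
    have h1 := b2.frame _ hx v
    have h2 : (∑ j, v j • s j).2 (e₂ (Y₂ y)) = S₂ (Y₂ y) v := by
      rw [h1]
      simp [Prod.snd_sum, Finset.sum_apply]
    rw [h2]
    show (Ring.inverse (S₂ (Y₂ y)) * S₂ (Y₂ y)) v = v
    rw [Ring.inverse_mul_cancel _ (b2.pull.unit _ hx)]
    rfl
  have d1coord : ∀ a, ∀ y ∈ HB z r₀,
      Ring.inverse (S₁ (Y₁ y)) ((t a).1 (e₁ (Y₁ y))) = W₁.c a y := by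
    intro a y hy
    have hx := b1.pull.diffeo.mapsY hy
    rw [b1.coord _ hx a, b1.pull.diffeo.inv2 y hy]
    show (Ring.inverse (S₁ (Y₁ y)) * S₁ (Y₁ y)) _ = _
    rw [Ring.inverse_mul_cancel _ (b1.pull.unit _ hx)]
    rfl
  have d2coord : ∀ a, ∀ y ∈ HB z r₀,
      Ring.inverse (S₂ (Y₂ y)) ((t a).2 (e₂ (Y₂ y))) = W₂.c a y := by
    intro a y hy
    have hx := b2.pull.diffeo.mapsY hy
    rw [b2.coord _ hx a, b2.pull.diffeo.inv2 y hy]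
    show (Ring.inverse (S₂ (Y₂ y)) * S₂ (Y₂ y)) _ = _
    rw [Ring.inverse_mul_cancel _ (b2.pull.unit _ hx)]
    rfl
  have hR := CNear_relHB z r
  have hfluxv : ∀ x ∈ HB z r, x 0 = 0 → ∀ v : Fib N,
      flux W₁.toLD 0 (fun _ => v) x = flux W₂.toLD 0 (fun _ => v) x := by
    intro x hx hx0 v
    have h1 := (hdat _ (hcomb v Finset.univ) x hx hx0).2
    rw [CNear_flux_congr hR W₁.toLD (fun y hy => d1const v y (hHB hy)) 0 hx,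
      CNear_flux_congr hR W₂.toLD (fun y hy => d2const v y (hHB hy)) 0 hx] at h1
    exact h1
  have hc : ∀ x ∈ HB z r, x 0 = 0 → ∀ a, W₁.c a x = W₂.c a x := by
    intro x hx hx0 a
    have h1 := (hdat _ (ht a) x hx hx0).1
    have h2 := d1coord a x (hHB hx)
    have h3 := d2coord a x (hHB hx)
    rw [← h2, ← h3]
    exact h1
  have hfluxc : ∀ x ∈ HB z r, x 0 = 0 → ∀ a,
      flux W₁.toLD 0 (W₁.c a) x = flux W₂.toLD 0 (W₂.c a) x := by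
    intro x hx hx0 a
    have h1 := (hdat _ (ht a) x hx hx0).2
    rw [CNear_flux_congr hR W₁.toLD (fun y hy => d1coord a y (hHB hy)) 0 hx,
      CNear_flux_congr hR W₂.toLD (fun y hy => d2coord a y (hHB hy)) 0 hx] at h1
    exact h1
  have hh : ∀ x ∈ HB z r, x 0 = 0 → W₁.h x = 1 ∧ W₂.h x = 1 := fun x hx hx0 =>
    ⟨pcH_eq hP.b1 c1 hx hx0, pcH_eq hP.b2 c2 hx hx0⟩
  obtain ⟨hκ, hjet⟩ := dbd n N κ₁ κ₂ cp j0 W₁ W₂ z r C hn hr b1.z0 c1.model c2.model hh hc hfluxv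
    hfluxc hC
  refine ⟨hκ, ?_⟩
  subst hκ
  have hEq := fRigBd n N κ₁ cp j0 W₁ W₂ z r hn hr b1.z0 c1.model c2.model hjet
  -- solutions in model coordinates
  have hsolEq : ∀ u ∈ PP P Q G, ∀ x ∈ HB z r,
      Ring.inverse (S₁ (Y₁ x)) (u.1 (e₁ (Y₁ x))) =
        Ring.inverse (S₂ (Y₂ x)) (u.2 (e₂ (Y₂ x))) := by
    intro u hu x hx
    obtain ⟨f, f', hf, hf1, hf2⟩ := id hu
    have k1 := (pcSide hP.b1 c1 hf1).2.2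
    have k2 := (pcSide hP.b2 c2 hf2).2.2
    have k3 : Sol W₁.toLD (HB z r)
        (fun y => Ring.inverse (S₁ (Y₁ y)) (u.1 (e₁ (Y₁ y))) -
          Ring.inverse (S₂ (Y₂ y)) (u.2 (e₂ (Y₂ y)))) := by
      refine ⟨k1.1.sub k2.1, fun y hy => ?_⟩
      rw [CNear_Lop_sub hR c1.model.ok k1.1 k2.1 hy, k1.2 y hy,
        CNear_Lop_data hR hEq.g hEq.B _ hy, k2.2 y hy, sub_zero]
    have k4 := fLinBd n N W₁.toLD z r hr b1.z0 c1.model.ok _ k3 (fun y hy hy0 => by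
      obtain ⟨e1, e2⟩ := hdat u hu y hy hy0
      refine ⟨sub_eq_zero.2 e1, ?_⟩
      rw [CNear_flux_sub hR W₁.toLD k1.1 k2.1 0 hy, e2, CNear_flux_data hEq.g hEq.B _ 0 hy,
        sub_self]) x hx
    exact sub_eq_zero.1 k4
  have hz : z ∈ HB z r := ⟨Metric.mem_ball_self hr, by show 0 ≤ z 0; rw [b1.z0]⟩
  exact ⟨z, r, W₁.toLD, W₂.toLD, D₁', D₂', X₁, Y₁, X₂, Y₂, S₁, S₂, b1.z0, hr, c1.rel, c2.rel,
    c1.sub, c2.sub, (c1.bd z hz b1.z0).1, (c2.bd z hz b1.z0).1, c1.pull, c2.pull, hEq.g, hEq.B,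
    hEq.h, hsolEq⟩

/-- The local match near a point of the patch (the equations are only needed on the common
coordinate domain). -/
theorem pcMatch {q₁ : M₁} {q₂ : M₂} {D : Set (E n)} {θ τ : E n → E n}
    (hP : PC P Q G (xc n q₁).symm (fun y => (xc n q₂).symm (τ y)) (P.loc q₁) L₂ D₀)
    (hD₀ : D₀ ⊆ tg n q₁) (hDr : RelOpen D) (hD : D ⊆ tg n q₂)
    (hpull : IsPull (Q.loc q₂) L₂ D D₀ θ τ (fun _ => 1))
    (hG : G.Ok n N) (hS : SameD P Q G) (hn : 3 ≤ n) (hN : 0 < N) {z₀ : E n} (hz₀t : z₀ ∈ D₀)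
    (hz₀0 : z₀ 0 = 0) (κ₁ κ₂ : ℝ) (cp : Cpl n N) (hE₁ : EYMeq κ₁ cp (P.loc q₁) D₀)
    (hE₂ : EYMeq κ₂ cp L₂ D₀) :
    κ₁ = κ₂ ∧ ∃ z ∈ D₀, z 0 = 0 ∧ ∃ (O : Set M₂) (φ : M₂ → M₁) (V : M₂ → EndF N),
      LMatch P Q G O φ V ∧ ∀ᶠ m in 𝓝 ((xc n q₂).symm (τ z)), m ∈ Mi n M₂ → m ∈ O := by
  obtain ⟨hκ, z, r, Λ₁, Λ₂, D₁, D₂, X₁, Y₁, X₂, Y₂, S₁, S₂, hz0, hr, hr1, hr2, hs1, hs2, hz1, hz2,
    hp1, hp2, hg, hB, hh, hsol⟩ := pcNear hP hG hS hn hN hz₀t hz₀0 κ₁ κ₂ cp hE₁ hE₂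
  refine ⟨hκ, z, hs2 hz2, hz0, ?_⟩
  have hd := hpull.diffeo
  have hrel : RelOpen (D ∩ θ ⁻¹' D₂) :=
    relOpen_preimage hDr hd.smX.continuousOn hd.mapsX hP.b1.rel hr2
  have hpr := pull_restrict hpull hs2
  have hcomp := bComp n N (Q.loc q₂) L₂ Λ₂ (D ∩ θ ⁻¹' D₂) D₂ (HB z r) θ τ X₂ Y₂ (fun _ => 1) S₂
    hrel hr2 (cERel_relOpen_HB z r) hpr hp2
  obtain ⟨O, φ, V, hO, hO'⟩ := fMatch n N M₁ M₂ P Q G q₁ q₂ z r Λ₁ Λ₂ D₁ (D ∩ θ ⁻¹' D₂) X₁ Y₁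
    (X₂ ∘ θ) (τ ∘ Y₂) S₁ (fun x => 1 * S₂ (θ x)) hr1 hrel (hs1.trans hD₀)
    (inter_subset_left.trans hD) hp1 hcomp hg hB hh (fun u hu x hx => by
      have h1 := hsol u hu x hx
      have hY : Y₂ x ∈ D₂ := hp2.diffeo.mapsY hx
      show Ring.inverse (S₁ (Y₁ x)) (u.1 ((xc n q₁).symm (Y₁ x))) =
        Ring.inverse (1 * S₂ (θ (τ (Y₂ x)))) (u.2 ((xc n q₂).symm (τ (Y₂ x))))
      rw [hd.inv2 _ (hs2 hY), one_mul]
      exact h1)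
  refine ⟨O, φ, V, hO, ?_⟩
  -- a neighbourhood of the point
  have himg : IsOpen ((fun y => (xc n q₂).symm (τ y)) '' D₂) := hP.b2.op D₂ hs2 hr2
  filter_upwards [himg.mem_nhds (mem_image_of_mem _ hz2)] with m hm hmi
  obtain ⟨y, hy, rfl⟩ := hm
  have hyD : τ y ∈ D := hd.mapsY (hs2 hy)
  refine hO' (τ y) ⟨hyD, ?_⟩ ?_
  · show θ (τ y) ∈ D₂
    rw [hd.inv2 _ (hs2 hy)]
    exact hy
  · -- the point is interior
    obtain ⟨h1, -, h3, -⟩ := fLoc n N M₂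
    have h4 := cUnm_pos h1 h3 ((xc n q₂).map_target (hD hyD)) hmi
    rw [(xc n q₂).right_inv (hD hyD)] at h4
    exact h4

/-- Common parametrisation near a given point of the patch, small with respect to an open set. -/
theorem exists_pc_at (hN : 0 < N) (P : One n N M₁) (Q : One n N M₂) {G : Gl M₁ M₂}
    (hG : G.Ok n N) {p : M₁} (hp : p ∈ G.Γ₁) {W : Set M₂} (hW : IsOpen W) (hpW : G.χ p ∈ W) :
    ∃ (q₂ : M₂) (z : E n) (r : ℝ) (D : Set (E n)) (θ τ : E n → E n) (L₂ : LD n N),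
      z 0 = 0 ∧ 0 < r ∧ HB z r ⊆ tg n p ∧ RelOpen D ∧ D ⊆ tg n q₂ ∧
      (∀ x ∈ D, (xc n q₂).symm x ∈ W) ∧
      PC P Q G (xc n p).symm (fun y => (xc n q₂).symm (τ y)) (P.loc p) L₂ (HB z r) ∧
      IsPull (Q.loc q₂) L₂ D (HB z r) θ τ (fun _ => 1) ∧
      ∀ κ cp, EYMeq κ cp (Q.loc q₂) D → EYMeq κ cp L₂ (HB z r) := by
  have hz : xc n p p ∈ tg n p := mem_extChartAt_target p
  have hs : (xc n p).symm (xc n p p) = p := extChartAt_to_inv p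
  obtain ⟨q₂, θ, τ, r₁, hr₁, hz0, h⟩ := theta fExt fLoc hN hG hz (by rw [hs]; exact hp)
  set z := xc n p p with hzdef
  obtain ⟨h1', D', hD', hDt', hd', hθ', hfl'⟩ := h r₁ hr₁ le_rfl
  have hzm : z ∈ HB z r₁ := cSetup_mem_HB hz0 hr₁
  -- shrink
  have hcont : ContinuousWithinAt (fun y => (xc n q₂).symm (τ y)) (HB z r₁) z := by
    have h2 : ContinuousOn (fun y => (xc n q₂).symm (τ y)) (HB z r₁) :=
      (continuousOn_extChartAt_symm q₂).comp hd'.smY.continuousOn fun y hy => hDt' (hd'.mapsY hy)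
    exact h2 z hzm
  have hval : (xc n q₂).symm (τ z) = G.χ p := by
    rw [(hfl' z hzm hz0).2.1, hs]
  have hev : ∀ᶠ y in 𝓝[HB z r₁] z, (xc n q₂).symm (τ y) ∈ W := by
    refine hcont.eventually (hW.mem_nhds ?_)
    show (xc n q₂).symm (τ z) ∈ W
    rw [hval]
    exact hpW
  obtain ⟨δ, hδ, hδW⟩ := Metric.mem_nhdsWithin_iff.1 hev
  set r : ℝ := min r₁ δ with hrdef
  have hr : 0 < r := lt_min hr₁ hδ
  obtain ⟨h1, D, hD, hDt, hd, hθ, hfl⟩ := h r hr (min_le_left _ _)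
  have hro : RelOpen (HB z r) := cStart_relOpen_HB z r
  have hiff : ∀ y ∈ HB z r, (τ y 0 = 0 ↔ y 0 = 0) := fun y hy => by
    rw [← hθ (τ y), hd.inv2 y hy]
  obtain ⟨L₂, hBC, hpull, heq⟩ := bc_trans ((bc_chart Q q₂).mono hD hDt) hD Subset.rfl hro hd hiff
  refine ⟨q₂, z, r, D, θ, τ, L₂, hz0, hr, h1, hD, hDt, fun x hx => ?_,
    ⟨(bc_chart P p).mono hro h1, hBC, fun y hy hy0 => (hfl y hy hy0).2.2.1,
      fun y hy hy0 => ?_, fun y hy hy0 => ?_⟩, hpull, heq⟩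
  · have h2 : θ x ∈ HB z r := hd.mapsX hx
    have h3 : (xc n q₂).symm (τ (θ x)) ∈ W := hδW
      ⟨Metric.ball_subset_ball (min_le_right _ _) h2.1,
        ⟨Metric.ball_subset_ball (min_le_left _ _) h2.1, h2.2⟩⟩
    rw [hd.inv1 x hx] at h3
    exact h3
  · obtain ⟨-, a2, -, a4⟩ := hfl y hy hy0
    show (xc n q₂).symm (τ y) ∈ G.Γ₂
    rw [a2]; exact a4
  · obtain ⟨-, a2, a3, -⟩ := hfl y hy hy0
    show G.ψ ((xc n q₂).symm (τ y)) = _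
    rw [a2]; exact hG.inv' _ a3

/-- The match near a point of the patch; the equations for `Q` are only needed on `W`. -/
theorem nearW (hn : 3 ≤ n) (hN : 0 < N) (hG : G.Ok n N) (hS : SameD P Q G) {κ₁ κ₂ : ℝ} {cp : Cpl n N}
    (hE₁ : EYMm κ₁ cp P.g P.A) {W : Set M₂} (hW : IsOpen W)
    (hE₂ : ∀ (q : M₂) (D : Set (E n)), D ⊆ tg n q → (∀ x ∈ D, (xc n q).symm x ∈ W) →
      EYMeq κ₂ cp (Q.loc q) D) {p₂ : M₂} (hp₂ : p₂ ∈ G.Γ₂) (hpW : p₂ ∈ W) :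
    κ₁ = κ₂ ∧ ∃ p ∈ G.Γ₂ ∩ W, ∃ (O : Set M₂) (φ : M₂ → M₁) (V : M₂ → EndF N),
      LMatch P Q G O φ V ∧ ∀ᶠ m in 𝓝 p, m ∈ Mi n M₂ → m ∈ O := by
  obtain ⟨q₂, z, r, D, θ, τ, L₂, hz0, hr, h1, hD, hDt, hDW, hPC, hpull, heq⟩ :=
    exists_pc_at hN P Q hG (hG.maps hp₂) hW (by rw [hG.inv p₂ hp₂]; exact hpW)
  have hzm : z ∈ HB z r := cSetup_mem_HB hz0 hr
  obtain ⟨hκ, z', hz', hz'0, O, φ, V, hO, hev⟩ := pcMatch hPC h1 hD hDt hpull hG hS hn hN hzm hz0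
    κ₁ κ₂ cp (eym_mono (hE₁ (G.ψ p₂)) h1) (heq _ _ (hE₂ q₂ D hDt hDW))
  exact ⟨hκ, _, ⟨hPC.m2 z' hz' hz'0, hDW _ (hpull.diffeo.mapsY hz')⟩, O, φ, V, hO, hev⟩

theorem cNear : CNear_statement.{u} := by
  intro n N _ M₁ M₂ _ _ _ _ _ _ _ _ _ _ _ _ _ _ _ _ P Q G κ₁ κ₂ cp hn hN hG hS hE₁ hE₂
  obtain ⟨p₂, hp₂⟩ := hG.ne₂
  obtain ⟨hκ, p, ⟨hp, -⟩, O, φ, V, hO, hev⟩ := nearW hn hN hG hS hE₁ isOpen_univ
    (fun q D hD _ => eym_mono (hE₂ q) hD) hp₂ (mem_univ _)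
  refine ⟨hκ, O, φ, V, hO, ?_⟩
  obtain ⟨-, -, hd⟩ := fConn n M₂
  obtain ⟨m, hm, hmi⟩ := mem_closure_iff_nhds.1 (hd p) _ hev
  exact ⟨m, hm hmi⟩

end Vale.Agent.P088.TM.G
end
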