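import Vale.Agent.P088.TM.H823
import Vale.Agent.P088.TM.G.H275N

/-!
# P088, two manifolds: limits of good points, solution coordinates, equality of the models, closedness, global match
-/

open Bundle Manifold MeasureTheory Set Filter Topology
open scoped ContDiff

noncomputable section

set_option linter.all false

namespace Vale.Agent.P088.TM.G

open Vale.Agent.P088.EYM

universe u

theorem cClosed : CLim_statement.{u} → CCoord_statement.{u} → CModEq_statement.{u} →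
    BModel_statement → BRigInt_statement → LinInt_statement → BSol_statement →
    CMatch_statement.{u} → Vale.Agent.P088.EYM.CHarm_statement.{u} →
    Vale.Agent.P088.EYM.CUniq_statement.{u} → Vale.Agent.P088.EYM.CLoc_statement.{u} →
    CClosed_statement.{u} := by
  intro hLim hCoord hModEq hBM hRig hLin hBSol hMatch hHarm hU hLoc
  intro n N _ M₁ M₂ _ _ _ _ _ _ _ _ _ _ _ _ _ _ _ _ P Q G κ cp hn hN hG hS hP hQ x₀ hx₀ hcl
  have hb₁ := cClosed_bdry hG.rel₁ hG.ne₁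
  have hb₂ := cClosed_bdry hG.rel₂ hG.ne₂
  obtain ⟨x₀', V₀, x, O, φ, V, hx₀', hV₀, hk, hx, hφ, hV, hlim⟩ :=
    hLim n N M₁ M₂ P Q G hn hN hG hS x₀ hx₀ hcl
  obtain ⟨j0, s, t, hs, ht, hu1, hu2, hd1, hd2, hpos, heq⟩ :=
    hCoord n N M₁ M₂ P Q G x₀ x₀' V₀ x O φ V hn hN hG hS hx₀ hx₀' hV₀ hk hx hφ hV hlim
  have hpos' := hpos
  rw [heq] at hpos'
  have hs1 : ∀ j, ∃ f, P.Harm f (s j).1 := fun j => by
    obtain ⟨f₁, f₂, _, h1, _⟩ := hs j; exact ⟨f₁, h1⟩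
  have hs2 : ∀ j, ∃ f, Q.Harm f (s j).2 := fun j => by
    obtain ⟨f₁, f₂, _, _, h1⟩ := hs j; exact ⟨f₂, h1⟩
  have ht1 : ∀ j, ∃ f, P.Harm f (t j).1 := fun j => by
    obtain ⟨f₁, f₂, _, h1, _⟩ := ht j; exact ⟨f₁, h1⟩
  have ht2 : ∀ j, ∃ f, Q.Harm f (t j).2 := fun j => by
    obtain ⟨f₁, f₂, _, _, h1⟩ := ht j; exact ⟨f₂, h1⟩
  obtain ⟨Y₁, W₁, r₁, hr₁, h₁⟩ := Vale.Agent.P088.EYM.G.cClosed_model hBM hHarm hU hLoc hN P hP hb₁ j0 hx₀'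
    (fun j => (s j).1) (fun a => (t a).1) hs1 ht1 hu1 hd1 hpos
  obtain ⟨Y₂, W₂, r₂, hr₂, h₂⟩ := Vale.Agent.P088.EYM.G.cClosed_model hBM hHarm hU hLoc hN Q hQ hb₂ j0 hx₀
    (fun j => (s j).2) (fun a => (t a).2) hs2 ht2 hu2 hd2 hpos'
  rw [← heq] at h₂
  set ζ := Xco j0 (frm n x₀' fun j => (s j).1) (fun a => lu (𝓡∂ n) x₀' (t a).1)
    (xc n x₀' x₀') with hζ
  obtain ⟨r, hr, hra, hrb, hrc⟩ : ∃ r, 0 < r ∧ r ≤ r₁ ∧ r ≤ r₂ ∧ r ≤ ζ 0 :=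
    ⟨min (min r₁ r₂) (ζ 0), lt_min (lt_min hr₁ hr₂) hpos,
      (min_le_left _ _).trans (min_le_left _ _), (min_le_left _ _).trans (min_le_right _ _),
      min_le_right _ _⟩
  obtain ⟨D₁, hD₁s, hD₁, hz₁, hpull₁, hmod₁, hc₁⟩ := h₁ r hr hra
  obtain ⟨D₂, hD₂s, hD₂, hz₂, hpull₂, hmod₂, hc₂⟩ := h₂ r hr hrb
  obtain ⟨hHB, hHBpos⟩ := cClosed_HB (n := n) hrc
  have hHBo : RelOpen (HB ζ r) := cClosed_relOpen_HB ζ r
  have hHBopen : IsOpen (HB ζ r) := by rw [hHB]; exact Metric.isOpen_ball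
  have hHBpre : IsPreconnected (HB ζ r) := by
    rw [hHB]; exact (convex_ball ζ r).isPreconnected
  -- a large index
  have ev1 : ∀ᶠ k in atTop, x k ∈ (xc n x₀).source ∧ xc n x₀ (x k) ∈ D₂ := by
    have e1 : ∀ᶠ k in atTop, x k ∈ (xc n x₀).source :=
      hx.eventually ((isOpen_extChartAt_source x₀).mem_nhds (mem_extChartAt_source x₀))
    have e2 : Tendsto (fun k => xc n x₀ (x k)) atTop (𝓝 (xc n x₀ x₀)) :=
      (continuousAt_extChartAt x₀).tendsto.comp hx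
    obtain ⟨O₂, hO₂, rfl⟩ := hD₂
    have e3 := e2.eventually (hO₂.mem_nhds hz₂.1)
    filter_upwards [e1, e3] with k h1 h3
    refine ⟨h1, h3, ?_⟩
    exact ((hLoc n N M₂).1 x₀).subset ((xc n x₀).map_source h1)
  have ev2 : ∀ᶠ k in atTop, φ k (x k) ∈ (xc n x₀').source ∧ xc n x₀' (φ k (x k)) ∈ D₁ := by
    have e1 : ∀ᶠ k in atTop, φ k (x k) ∈ (xc n x₀').source :=
      hφ.eventually ((isOpen_extChartAt_source x₀').mem_nhds (mem_extChartAt_source x₀'))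
    have e2 : Tendsto (fun k => xc n x₀' (φ k (x k))) atTop (𝓝 (xc n x₀' x₀')) :=
      (continuousAt_extChartAt x₀').tendsto.comp hφ
    obtain ⟨O₂, hO₂, rfl⟩ := hD₁
    have e3 := e2.eventually (hO₂.mem_nhds hz₁.1)
    filter_upwards [e1, e3] with k h1 h3
    refine ⟨h1, h3, ?_⟩
    exact ((hLoc n N M₁).1 x₀').subset ((xc n x₀').map_source h1)
  obtain ⟨k, ⟨hk1, hk2⟩, hk3, hk4⟩ := (ev1.and ev2).exists
  obtain ⟨U, hUo, hUs, hUn, hUeq, hUu⟩ := hModEq n N M₁ M₂ P Q G j0 s t x₀' x₀ ζ r W₁ W₂ D₁ D₂ Y₁ Y₂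
    hs ht hD₁ hD₂ hD₁s hD₂s hpull₁ hpull₂ hc₁ hc₂ (O k) (φ k) (V k) (hk k).1 (x k) (hk k).2
    hk1 hk2 hk3 hk4
  have hEq : EqOnM W₁ W₂ (HB ζ r) :=
    hRig n N κ cp j0 W₁ W₂ (HB ζ r) hn hHBopen hHBpos hHBpre hmod₁ hmod₂ U hUo hUs hUn hUeq
  have hL₁ : (P.loc x₀').Ok D₁ := by
    have := (hLoc n N M₁).2.1 P x₀'
    exact ⟨fun i j => (this.g_smooth i j).mono hD₁s, fun y hy => this.g_pos y (hD₁s hy),
      fun i => (this.B_smooth i).mono hD₁s, this.h_smooth.mono hD₁s,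
      fun y hy => this.h_adj y (hD₁s hy), fun y hy => this.h_pos y (hD₁s hy),
      fun y hy => this.compat y (hD₁s hy)⟩
  have hL₂ : (Q.loc x₀).Ok D₂ := by
    have := (hLoc n N M₂).2.1 Q x₀
    exact ⟨fun i j => (this.g_smooth i j).mono hD₂s, fun y hy => this.g_pos y (hD₂s hy),
      fun i => (this.B_smooth i).mono hD₂s, this.h_smooth.mono hD₂s,
      fun y hy => this.h_adj y (hD₂s hy), fun y hy => this.h_pos y (hD₂s hy),
      fun y hy => this.compat y (hD₂s hy)⟩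
  have hsec : ∀ u ∈ PP P Q G, ∀ y ∈ HB ζ r,
      Ring.inverse (frm n x₀' (fun j => (s j).1) (Y₁ y)) (lu (𝓡∂ n) x₀' u.1 (Y₁ y)) =
      Ring.inverse (frm n x₀ (fun j => (s j).2) (Y₂ y)) (lu (𝓡∂ n) x₀ u.2 (Y₂ y)) := by
    intro u hu
    obtain ⟨f₁, f₂, hff, hf1, hf2⟩ := hu
    have a1 : Sol (P.loc x₀') D₁ (lu (𝓡∂ n) x₀' u.1) := by
      have := hHarm n N M₁ P f₁ _ hf1 x₀'
      exact ⟨this.1.mono hD₁s, fun y hy => this.2 y (hD₁s hy)⟩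
    have a2 : Sol (Q.loc x₀) D₂ (lu (𝓡∂ n) x₀ u.2) := by
      have := hHarm n N M₂ Q f₂ _ hf2 x₀
      exact ⟨this.1.mono hD₂s, fun y hy => this.2 y (hD₂s hy)⟩
    have b1 := cClosed_tr hBSol hD₁ hHBo hL₁ hmod₁.ok hpull₁ a1
    have b2 := cClosed_tr hBSol hD₂ hHBo hL₂ hmod₂.ok hpull₂ a2
    have b3 : Sol W₁.toLD (HB ζ r)
        (fun y => Ring.inverse (frm n x₀ (fun j => (s j).2) (Y₂ y)) (lu (𝓡∂ n) x₀ u.2 (Y₂ y))) :=
      cClosed_sol_congr hHBo hEq.g hEq.B (fun _ _ => rfl) b2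
    have b4 := cClosed_sol_sub hHBo hmod₁.ok b1 b3
    have b5 := hLin n N W₁.toLD (HB ζ r) hHBopen inter_subset_right hmod₁.ok hHBpre _ b4 U hUo hUs
      hUn (fun y hy => sub_eq_zero.2 (hUu u ⟨f₁, f₂, hff, hf1, hf2⟩ y hy))
    intro y hy
    exact sub_eq_zero.1 (b5 y hy)
  obtain ⟨O', φ', V', hM, hO'⟩ := hMatch n N M₁ M₂ P Q G x₀' x₀ ζ r W₁.toLD W₂.toLD D₁ D₂ _ Y₁ _ Y₂ _ _
    hD₁ hD₂ hD₁s hD₂s hpull₁ hpull₂ hEq.g hEq.B hEq.h hsec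
  refine ⟨O', φ', V', hM, ?_⟩
  have := hO' (xc n x₀ x₀) hz₂ (cClosed_pos hLoc hx₀)
  rwa [extChartAt_to_inv] at this

section glob

variable {n N : ℕ} [NeZero n] {M₁ M₂ : Type u}
  [TopologicalSpace M₁] [ChartedSpace (EuclideanHalfSpace n) M₁] [IsManifold (𝓡∂ n) ∞ M₁]
  [TopologicalSpace M₂] [ChartedSpace (EuclideanHalfSpace n) M₂] [IsManifold (𝓡∂ n) ∞ M₂]
  [MeasurableSpace M₁] [MeasurableSpace M₂]

variable [T2Space M₁] [CompactSpace M₁] [ConnectedSpace M₁] [BorelSpace M₁]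
  [T2Space M₂] [CompactSpace M₂] [ConnectedSpace M₂] [BorelSpace M₂]

/-- all interior points are good -/
theorem cGlobal_good (hNear : CNear_statement.{u}) (hCl : CClosed_statement.{u})
    (hC : Vale.Agent.P088.EYM.CConn_statement.{u}) {P : One n N M₁}
    {Q : One n N M₂} {G : Gl M₁ M₂} {κ₁ κ₂ : ℝ} {cp : Cpl n N} (hn : 3 ≤ n) (hN : 0 < N) (hG : G.Ok n N)
    (hS : SameD P Q G) (h1 : EYMm κ₁ cp P.g P.A) (h2 : EYMm κ₂ cp Q.g Q.A) :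
    κ₁ = κ₂ ∧ ∀ x ∈ Mi n M₂, x ∈ Gd P Q G := by
  obtain ⟨rfl, O, φ, V, hm, hne⟩ := hNear n N M₁ M₂ P Q G κ₁ κ₂ cp hn hN hG hS h1 h2
  have hopen : IsOpen (Gd P Q G) := by
    rw [isOpen_iff_mem_nhds]
    rintro x ⟨O', φ', V', hm', hx⟩
    filter_upwards [hm'.isOpen.mem_nhds hx] with y hy using ⟨O', φ', V', hm', hy⟩
  have hpre := (hC n M₂).2.1
  have hsub : Mi n M₂ ⊆ Gd P Q G := by
    refine hpre.subset_of_closure_inter_subset hopen ?_ ?_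
    · obtain ⟨x, hx⟩ := hne
      exact ⟨x, hm.sub hx, O, φ, V, hm, hx⟩
    · rintro x ⟨hx1, hx2⟩
      exact hCl n N M₁ M₂ P Q G κ₁ cp hn hN hG hS h1 h2 x hx2 hx1
  exact ⟨rfl, hsub⟩

end glob

theorem cGlobal : CNear_statement.{u} → CClosed_statement.{u} →
    Vale.Agent.P088.EYM.CRunge_statement.{u} → CData_statement.{u} →
    Vale.Agent.P088.EYM.CConn_statement.{u} → Vale.Agent.P088.EYM.CUniq_statement.{u} →
    CGlobal_statement.{u} := by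
  intro hNear hCl hR hD hC _ n N _ M₁ M₂ _ _ _ _ _ _ _ _ _ _ _ _ _ _ _ _ P Q G κ₁ κ₂ cp hn hN hG
    hS h1 h2
  have hn2 : 2 ≤ n := le_trans (by norm_num) hn
  obtain ⟨⟨hP, hQ, hS'⟩, _⟩ := hD n N M₁ M₂ P Q G hG hS
  have hG1 := cGlobal_good hNear hCl hC hn hN hG hS h1 h2
  have hG2 := cGlobal_good hNear hCl hC hn hN hG.symm hS' h2 h1
  obtain ⟨Φ, V, hΦ⟩ := cGlobal_glue hR hC hn2 hN hG hP hQ hG1.2
  obtain ⟨Ψ, V', hΨ⟩ := cGlobal_glue hR hC hn2 hN hG.symm hQ hP hG2.2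
  refine ⟨hG1.1, Φ, Ψ, V, V', hΦ, hΨ, ?_, ?_⟩
  · intro x hx
    obtain ⟨O', hx', hm'⟩ := hΨ x hx
    have hy : Ψ x ∈ Mi n M₂ := hm'.maps hx'
    obtain ⟨O, hyO, hm⟩ := hΦ (Ψ x) hy
    refine (cGlobal_uniq hR hC (P := P) (Q := Q) hn2 hN hG hP hQ hx (hm.maps hyO)
      (V := 1) (V' := V' x * V (Ψ x)) (one_mem _) ?_).1.symm
    intro u hu
    have e1 := hm'.sol _ (PP_swap hG hu) x hx'
    have e2 := hm.sol u hu (Ψ x) hyO
    change u.1 x = V' x (u.2 (Ψ x)) at e1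
    change u.1 x = V' x (V (Ψ x) (u.1 (Φ (Ψ x))))
    rw [← e2]
    exact e1
  · intro x hx
    obtain ⟨O, hx', hm⟩ := hΦ x hx
    have hy : Φ x ∈ Mi n M₁ := hm.maps hx'
    obtain ⟨O', hyO, hm'⟩ := hΨ (Φ x) hy
    refine (cGlobal_uniq hR hC (P := Q) (Q := P) hn2 hN hG.symm hQ hP hx (hm'.maps hyO)
      (V := 1) (V' := V x * V' (Φ x)) (one_mem _) ?_).1.symm
    intro u hu
    have e1 := hm.sol _ (PP_swap hG.symm hu) x hx'
    have e2 := hm'.sol u hu (Φ x) hyO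
    change u.1 x = V x (u.2 (Φ x)) at e1
    change u.1 x = V x (V' (Φ x) (u.1 (Ψ (Φ x))))
    rw [← e2]
    exact e1

end Vale.Agent.P088.TM.G
end
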