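import Vale.Agent.P088.TM.H332P
import Vale.Agent.P088.TM.G.H823

/-!
# P088: two manifolds, common parametrisation of the patches inside given open sets
-/

open Bundle Manifold MeasureTheory Set Filter Topology
open scoped ContDiff

noncomputable section

namespace Vale.Agent.P088.TM.G

open Vale.Agent.P088 Vale.Agent.P088.EYM

universe u

set_option linter.all false

variable {n N : ℕ} [NeZero n] {M₁ M₂ : Type u}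
  [TopologicalSpace M₁] [ChartedSpace (EuclideanHalfSpace n) M₁] [IsManifold (𝓡∂ n) ∞ M₁]
  [T2Space M₁] [CompactSpace M₁] [MeasurableSpace M₁] [BorelSpace M₁]
  [TopologicalSpace M₂] [ChartedSpace (EuclideanHalfSpace n) M₂] [IsManifold (𝓡∂ n) ∞ M₂]
  [T2Space M₂] [CompactSpace M₂] [MeasurableSpace M₂] [BorelSpace M₂]

/-- Common parametrisation of the two manifolds near corresponding points `x ∈ W₂`, `ψ x ∈ W₁` of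
the patches, inside `W₁` and `W₂`. -/
theorem exists_pcW (hN : 0 < N) (P : One n N M₁) (Q : One n N M₂) {G : Gl M₁ M₂}
    (hG : G.Ok n N) {W₁ : Set M₁} {W₂ : Set M₂} (hW₁ : IsOpen W₁) (hW₂ : IsOpen W₂) {x : M₂}
    (hx : x ∈ G.Γ₂) (hxW₂ : x ∈ W₂) (hxW₁ : G.ψ x ∈ W₁) :
    ∃ (q₁ : M₁) (q₂ : M₂) (z : E n) (r : ℝ) (D : Set (E n)) (θ τ : E n → E n) (L₂ : LD n N),
      z 0 = 0 ∧ 0 < r ∧ HB z r ⊆ tgW n W₁ q₁ ∧ RelOpen D ∧ D ⊆ tgW n W₂ q₂ ∧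
      BC P (xc n q₁).symm (P.loc q₁) (HB z r) ∧
      BC Q (fun y => (xc n q₂).symm (τ y)) L₂ (HB z r) ∧
      IsPull (Q.loc q₂) L₂ D (HB z r) θ τ (fun _ => 1) ∧
      (∀ κ cp, EYMeq κ cp (Q.loc q₂) (tgW n W₂ q₂) → EYMeq κ cp L₂ (HB z r)) ∧
      ∀ y ∈ HB z r, y 0 = 0 → (xc n q₁).symm y ∈ G.Γ₁ ∧
        (xc n q₂).symm (τ y) = G.χ ((xc n q₁).symm y) ∧ (xc n q₂).symm (τ y) ∈ G.Γ₂ ∧
        G.ψ ((xc n q₂).symm (τ y)) = (xc n q₁).symm y := by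
  have hrel₁ := (fLoc n N M₁).1
  have hrel₂ := (fLoc n N M₂).1
  obtain ⟨q₁, hq₁⟩ : ∃ q₁ : M₁, q₁ = G.ψ x := ⟨_, rfl⟩
  have hq₁Γ : q₁ ∈ G.Γ₁ := by
    rw [hq₁]
    exact hG.maps hx
  have hz : xc n q₁ q₁ ∈ tg n q₁ := mem_extChartAt_target q₁
  have hs : (xc n q₁).symm (xc n q₁ q₁) = q₁ := extChartAt_to_inv q₁
  obtain ⟨q₂, θ, τ, r₀, hr₀, hz0, h⟩ := theta fExt fLoc hN hG hz (by rw [hs]; exact hq₁Γ)
  set z := xc n q₁ q₁ with hzdef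
  obtain ⟨h1₀, D₀, hD₀, hDt₀, hd₀, hθ₀, hfl₀⟩ := h r₀ hr₀ le_rfl
  have hzm : z ∈ HB z r₀ := ⟨Metric.mem_ball_self hr₀, by show 0 ≤ z 0; rw [hz0]⟩
  obtain ⟨-, b2, -, -⟩ := hfl₀ z hzm hz0
  have hτz : (xc n q₂).symm (τ z) = x := by
    rw [b2, hs, hq₁]
    exact hG.inv x hx
  -- the point is in `tgW`
  have hzW₁ : z ∈ tgW n W₁ q₁ := ⟨hz, by
    rw [mem_preimage, hs, hq₁]
    exact hxW₁⟩
  have hτzW₂ : τ z ∈ tgW n W₂ q₂ := ⟨hDt₀ (hd₀.mapsY hzm), by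
    rw [mem_preimage, hτz]
    exact hxW₂⟩
  obtain ⟨U₁, hU₁, hU₁e⟩ := tgW_rel hrel₁ hW₁ q₁
  obtain ⟨U₂, hU₂, hU₂e⟩ := tgW_rel hrel₂ hW₂ q₂
  have hzU₁ : z ∈ U₁ := by
    rw [hU₁e] at hzW₁
    exact hzW₁.1
  have hτU₂ : τ z ∈ U₂ := by
    rw [hU₂e] at hτzW₂
    exact hτzW₂.1
  obtain ⟨ε₁, hε₁, hb₁⟩ := Metric.isOpen_iff.1 hU₁ z hzU₁
  have hc : ContinuousWithinAt τ (HB z r₀) z := hd₀.smY.continuousOn z hzm
  have hev : ∀ᶠ y in 𝓝[HB z r₀] z, τ y ∈ U₂ := hc.eventually (hU₂.mem_nhds hτU₂)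
  obtain ⟨δ, hδ, hδ'⟩ := Metric.mem_nhdsWithin_iff.1 hev
  obtain ⟨r, hr, hrr₀, hrε, hrδ⟩ : ∃ r : ℝ, 0 < r ∧ r ≤ r₀ ∧ r ≤ ε₁ ∧ r ≤ δ :=
    ⟨min r₀ (min ε₁ δ), lt_min hr₀ (lt_min hε₁ hδ), min_le_left _ _,
      (min_le_right _ _).trans (min_le_left _ _), (min_le_right _ _).trans (min_le_right _ _)⟩
  obtain ⟨h1, D, hD, hDt, hd, hθ, hfl⟩ := h r hr hrr₀
  have hHB₁ : HB z r ⊆ tgW n W₁ q₁ := by
    rw [hU₁e]
    exact inter_subset_inter_left _ ((Metric.ball_subset_ball hrε).trans hb₁)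
  have hDW : D ⊆ tgW n W₂ q₂ := by
    intro y hy
    have e1 : θ y ∈ HB z r := hd.mapsX hy
    have e2 : τ (θ y) = y := hd.inv1 y hy
    have e3 : τ (θ y) ∈ U₂ := hδ' ⟨Metric.ball_subset_ball hrδ e1.1,
      Metric.ball_subset_ball hrr₀ e1.1, e1.2⟩
    rw [e2] at e3
    rw [hU₂e]
    exact ⟨e3, hD.subset hy⟩
  have hro : RelOpen (HB z r) := cStart_relOpen_HB z r
  have hiff : ∀ y ∈ HB z r, (τ y 0 = 0 ↔ y 0 = 0) := fun y hy => by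
    rw [← hθ (τ y), hd.inv2 y hy]
  obtain ⟨L₂, hBC, hpull, heq⟩ := bc_trans ((bc_chart Q q₂).mono (tgW_rel hrel₂ hW₂ q₂)
    (tgW_sub W₂ q₂)) hD hDW hro hd hiff
  refine ⟨q₁, q₂, z, r, D, θ, τ, L₂, hz0, hr, hHB₁, hD, hDW, (bc_chart P q₁).mono hro h1, hBC,
    hpull, heq, fun y hy hy0 => ?_⟩
  obtain ⟨a1, a2, a3, a4⟩ := hfl y hy hy0
  refine ⟨a3, a2, ?_, ?_⟩
  · rw [a2]; exact a4
  · rw [a2]; exact hG.inv' _ a3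

end Vale.Agent.P088.TM.G
end
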